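import Mathlib
import Vale.Agent.P260.H145.PDZDef

/-!
# P260 climb, block V1: a Poincare duality group (with a finite free resolution over the
integers) is torsion free
-/

namespace Vale.Agent.P260.H856.V1

open MonoidAlgebra

section Mod

variable {R F F' F'' : Type*} [Ring R] [AddCommGroup F] [AddCommGroup F'] [AddCommGroup F'']
  [Module R F] [Module R F'] [Module R F'']

/-- one dimension shift -/
theorem shift {A B : R} (hBA : B * A = 0) (f : F →ₗ[R] F'') (f' : F' →ₗ[R] F)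
    (ex : ∀ x, f x = 0 ↔ ∃ w, f' w = x) (hE : ∀ x : F, A • x = 0 → ∃ u : F, B • u = x)
    (hO : ∀ w, B • f' w = 0 → ∃ y, A • f' y = f' w) :
    ∀ x, A • f x = 0 → ∃ y, B • f y = f x := by
  intro x hx
  obtain ⟨w, hw⟩ := (ex (A • x)).1 (by rw [map_smul, hx])
  obtain ⟨y, hy⟩ := hO w (by rw [hw, smul_smul, hBA, zero_smul])
  obtain ⟨u, hu⟩ := hE (x - f' y) (by rw [smul_sub, hy, hw, sub_self])
  refine ⟨u, ?_⟩
  rw [← map_smul, hu, map_sub, (ex (f' y)).2 ⟨y, rfl⟩, sub_zero]

theorem shift0 {A B : R} (f : F →ₗ[R] F'') (inj : ∀ x, f x = 0 → x = 0)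
    (hE : ∀ x : F, A • x = 0 → ∃ u : F, B • u = x) :
    ∀ x, A • f x = 0 → ∃ y, B • f y = f x := by
  intro x hx
  obtain ⟨u, hu⟩ := hE x (inj _ (by rw [map_smul, hx]))
  exact ⟨u, by rw [← map_smul, hu]⟩

end Mod

section Rest

variable {G : Type}

/-- restriction of the support to a set -/
noncomputable def rest (T : Set G) : MonoidAlgebra ℤ G →+ MonoidAlgebra ℤ G := by
  classical
  exact
  { toFun := fun a => ofCoeff (a.coeff.filter (· ∈ T))
    map_zero' := by
      rw [coeff_zero]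
      exact (congrArg ofCoeff (Finsupp.filter_zero _)).trans ofCoeff_zero
    map_add' := fun a b => by
      rw [coeff_add, Finsupp.filter_add, ofCoeff_add] }

theorem rest_single_mem {T : Set G} {x : G} (hx : x ∈ T) (c : ℤ) :
    rest T (single x c) = single x c := by
  classical
  simp only [rest, AddMonoidHom.coe_mk, ZeroHom.coe_mk, coeff_single]
  rw [Finsupp.filter_single_of_pos _ hx, ofCoeff_single]

theorem rest_single_not {T : Set G} {x : G} (hx : x ∉ T) (c : ℤ) :
    rest T (single x c) = 0 := by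
  classical
  simp only [rest, AddMonoidHom.coe_mk, ZeroHom.coe_mk, coeff_single]
  rw [Finsupp.filter_single_of_neg _ hx, ofCoeff_zero]

end Rest

section Cyc

variable {G : Type} [Group G]

/-- a set of representatives of the orbits of the left translations by powers of `g` -/
theorem exists_rep (g : G) (hg : IsOfFinOrder g) : ∃ T : Set G, ∀ x : G,
    ∃ i ∈ Finset.range (orderOf g), g⁻¹ ^ i * x ∈ T ∧
      ∀ j ∈ Finset.range (orderOf g), g⁻¹ ^ j * x ∈ T → j = i := by
  classical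
  obtain ⟨T, hT, -⟩ := Subgroup.exists_isComplement_right (Subgroup.zpowers g) 1
  refine ⟨T, fun x => ?_⟩
  obtain ⟨⟨h, t⟩, hht, huniq⟩ := hT.existsUnique x
  obtain ⟨i, hi, hgi⟩ := Finset.mem_image.1 ((IsOfFinOrder.mem_zpowers_iff_mem_range_orderOf hg).1 h.2)
  refine ⟨i, hi, ?_, ?_⟩
  · have : g⁻¹ ^ i * x = t := by
      rw [← hht, ← hgi, ← mul_assoc, inv_pow, inv_mul_cancel, one_mul]
    rw [this]; exact t.2
  · intro j hj hjT
    have := huniq (⟨g ^ j, Subgroup.pow_mem _ (Subgroup.mem_zpowers g) j⟩, ⟨_, hjT⟩)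
      (by simp)
    have h1 : g ^ j = h := congrArg (fun p => (p.1 : G)) this
    rw [← hgi] at h1
    exact pow_injOn_Iio_orderOf (by simpa using hj) (by simpa using hi) h1

variable (g : G)

noncomputable def Tt : MonoidAlgebra ℤ G := single g 1 - 1

noncomputable def Nn : MonoidAlgebra ℤ G := ∑ i ∈ Finset.range (orderOf g), single g 1 ^ i

theorem Nn_mul_Tt : Nn g * Tt g = 0 := by
  rw [Nn, Tt, geom_sum_mul, single_pow, pow_orderOf_eq_one, one_pow, one_def, sub_self]

theorem Tt_mul_Nn : Tt g * Nn g = 0 := by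
  rw [Nn, Tt, mul_geom_sum, single_pow, pow_orderOf_eq_one, one_pow, one_def, sub_self]

theorem single_inv_mul : (single g⁻¹ (1 : ℤ)) * single g 1 = 1 := by
  rw [single_mul_single, inv_mul_cancel, one_mul, one_def]

variable {g}

theorem decomp {T : Set G} (hT : ∀ x : G,
    ∃ i ∈ Finset.range (orderOf g), g⁻¹ ^ i * x ∈ T ∧
      ∀ j ∈ Finset.range (orderOf g), g⁻¹ ^ j * x ∈ T → j = i) (a : MonoidAlgebra ℤ G) :
    a = ∑ i ∈ Finset.range (orderOf g), single g 1 ^ i * rest T (single g⁻¹ 1 ^ i * a) := by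
  induction a using MonoidAlgebra.induction_linear with
  | zero => simp
  | add a b ha hb =>
    conv_lhs => rw [ha, hb]
    rw [← Finset.sum_add_distrib]
    refine Finset.sum_congr rfl fun i _ => ?_
    rw [mul_add, map_add, mul_add]
  | single x c =>
    obtain ⟨i, hi, hx, hu⟩ := hT x
    rw [Finset.sum_eq_single_of_mem i hi]
    · rw [single_pow, single_pow, single_mul_single, one_pow, one_mul, rest_single_mem hx,
        single_mul_single, one_mul, inv_pow, mul_inv_cancel_left]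
    · intro j hj hji
      rw [single_pow g⁻¹, single_mul_single, one_pow, one_mul,
        rest_single_not (fun h => hji (hu j hj h)), mul_zero]

theorem ring_E (hg : IsOfFinOrder g) (a : MonoidAlgebra ℤ G) (ha : Tt g * a = 0) :
    ∃ b, Nn g * b = a := by
  obtain ⟨T, hT⟩ := exists_rep g hg
  have h1 : single g 1 * a = a := by
    rw [Tt, sub_mul, one_mul, sub_eq_zero] at ha; exact ha
  have h2 : single g⁻¹ 1 * a = a := by
    conv_lhs => rw [← h1]
    rw [← mul_assoc, single_inv_mul, one_mul]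
  have h3 : ∀ i : ℕ, single g⁻¹ 1 ^ i * a = a := by
    intro i
    induction i with
    | zero => simp
    | succ i ih => rw [pow_succ, mul_assoc, h2, ih]
  refine ⟨rest T a, ?_⟩
  conv_rhs => rw [decomp hT a]
  rw [Nn, Finset.sum_mul]
  exact Finset.sum_congr rfl fun i _ => by rw [h3]

theorem sum_inv (hg : IsOfFinOrder g) :
    ∑ i ∈ Finset.range (orderOf g), (single g⁻¹ (1 : ℤ)) ^ i = Nn g := by
  have hn : 0 < orderOf g := hg.orderOf_pos
  obtain ⟨m, hm⟩ : ∃ m, orderOf g = m + 1 := ⟨orderOf g - 1, by omega⟩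
  have hpow : g ^ (m + 1) = 1 := by rw [← hm, pow_orderOf_eq_one]
  rw [Nn, hm, Finset.sum_range_succ', Finset.sum_range_succ']
  congr 1
  rw [← Finset.sum_range_reflect]
  refine Finset.sum_congr rfl fun i hi => ?_
  have hi' : i < m := by simpa using hi
  rw [single_pow, single_pow, one_pow, one_pow]
  congr 1
  rw [inv_pow, inv_eq_iff_mul_eq_one, ← pow_add]
  have : m - 1 - i + 1 + (i + 1) = m + 1 := by omega
  rw [this, hpow]

theorem ring_O (hg : IsOfFinOrder g) (a : MonoidAlgebra ℤ G) (ha : Nn g * a = 0) :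
    ∃ b, Tt g * b = a := by
  obtain ⟨T, hT⟩ := exists_rep g hg
  have h0 : ∑ i ∈ Finset.range (orderOf g), rest T (single g⁻¹ 1 ^ i * a) = 0 := by
    rw [← map_sum, ← Finset.sum_mul, sum_inv hg, ha, map_zero]
  refine ⟨∑ i ∈ Finset.range (orderOf g), (∑ l ∈ Finset.range i, single g 1 ^ l) *
    rest T (single g⁻¹ 1 ^ i * a), ?_⟩
  conv_rhs => rw [decomp hT a, ← sub_zero (∑ i ∈ Finset.range (orderOf g), _), ← h0]
  rw [← Finset.sum_sub_distrib, Finset.mul_sum]
  refine Finset.sum_congr rfl fun i _ => ?_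
  rw [← mul_assoc, Tt, mul_geom_sum, sub_mul, one_mul]

theorem mod_E (hg : IsOfFinOrder g) {ι : Type} (x : ι → MonoidAlgebra ℤ G)
    (hx : Tt g • x = 0) : ∃ u : ι → MonoidAlgebra ℤ G, Nn g • u = x := by
  choose u hu using fun i => ring_E hg (x i) (congrFun hx i)
  exact ⟨u, funext hu⟩

theorem mod_O (hg : IsOfFinOrder g) {ι : Type} (x : ι → MonoidAlgebra ℤ G)
    (hx : Nn g • x = 0) : ∃ u : ι → MonoidAlgebra ℤ G, Tt g • u = x := by
  choose u hu using fun i => ring_O hg (x i) (congrFun hx i)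
  exact ⟨u, funext hu⟩

end Cyc

open H145 Matrix

/-- A Poincare duality group of dimension 4 with a finite free resolution is torsion free. -/
theorem torsion_free {G : Type} [Group G] (P : PD4Z G) (g : G) (hg : IsOfFinOrder g) : g = 1 := by
  have e4 := shift0 (A := Tt g) (B := Nn g) (Matrix.vecMulLinear P.d₄)
    (fun x hx => P.ex₄ x (by simpa using hx)) (mod_E hg)
  have o3 := shift (A := Nn g) (B := Tt g) (Tt_mul_Nn g) (Matrix.vecMulLinear P.d₃)
    (Matrix.vecMulLinear P.d₄) (fun x => by simpa using P.ex₃ x) (mod_O hg) e4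
  have e2 := shift (A := Tt g) (B := Nn g) (Nn_mul_Tt g) (Matrix.vecMulLinear P.d₂)
    (Matrix.vecMulLinear P.d₃) (fun x => by simpa using P.ex₂ x) (mod_E hg) o3
  have o1 := shift (A := Nn g) (B := Tt g) (Tt_mul_Nn g) (Matrix.vecMulLinear P.d₁)
    (Matrix.vecMulLinear P.d₂) (fun x => by simpa using P.ex₁ x) (mod_O hg) e2
  obtain ⟨x, hx⟩ := P.onto
  have haug : ∀ (a b : MonoidAlgebra ℤ G), augZ G (a * b) = augZ G a * augZ G b := map_mul _
  have hT0 : augZ G (Tt g) = 0 := by simp [Tt, augZ, MonoidAlgebra.lift_single]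
  have hN0 : augZ G (Nn g) = orderOf g := by
    simp [Nn, augZ, MonoidAlgebra.lift_single]
  have heps : ∀ (a : MonoidAlgebra ℤ G) (v : Fin P.n₀ → MonoidAlgebra ℤ G),
      ∑ i, augZ G ((a • v) i) * P.c i = augZ G a * ∑ i, augZ G (v i) * P.c i := by
    intro a v
    rw [Finset.mul_sum]
    refine Finset.sum_congr rfl fun i _ => ?_
    rw [Pi.smul_apply, smul_eq_mul, haug, mul_assoc]
  obtain ⟨w, hw⟩ := (P.ex₀ (Tt g • x)).1 (by rw [heps, hT0, zero_mul])
  obtain ⟨y, hy⟩ := o1 w (by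
    change Nn g • (w ᵥ* P.d₁) = 0
    rw [hw, smul_smul, Nn_mul_Tt, zero_smul])
  have hy' : Tt g • (y ᵥ* P.d₁) = Tt g • x := by
    rw [← hw]; exact hy
  obtain ⟨u, hu⟩ := mod_E hg (x - y ᵥ* P.d₁) (by rw [smul_sub, hy', sub_self])
  have h1 : ∑ i, augZ G ((x - y ᵥ* P.d₁) i) * P.c i = 1 := by
    have h2 := (P.ex₀ (y ᵥ* P.d₁)).2 ⟨y, rfl⟩
    simp only [Pi.sub_apply, map_sub, sub_mul, Finset.sum_sub_distrib]
    rw [hx, h2, sub_zero]
  rw [← hu, heps, hN0] at h1
  have h3 : (orderOf g : ℤ) = 1 := by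
    have h4 : (orderOf g : ℤ) ∣ 1 := ⟨_, h1.symm⟩
    have h5 := Int.eq_one_of_dvd_one (by positivity) h4
    exact h5
  have h6 : orderOf g = 1 := by exact_mod_cast h3
  exact orderOf_eq_one_iff.1 h6

theorem torsion_free' (G : Type) [Group G] (P : PD4Z G) : ∀ g : G, g ≠ 1 → ¬ IsOfFinOrder g :=
  fun g h hg => h (torsion_free P g hg)

end Vale.Agent.P260.H856.V1
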