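import Mathlib
import Vale.Agent.P260.H802.VSpec
import Vale.Agent.P260.H493.Spec2
import Vale.Agent.P260.H856.V1

/-!
# P260 climb, block V1 in the letters of `H802/VSpec.lean` and `H493/Spec2.lean`
-/

namespace Vale.Agent.P260.H856.V1

open H145

theorem stmtTF : H802.StmtTF := fun G _ P => torsion_free' G P

theorem stmtTF' : H493.StmtTF := fun G _ P g hg n hn h =>
  hg (torsion_free P g (isOfFinOrder_iff_pow_eq_one.2 ⟨n, hn, h⟩))

end Vale.Agent.P260.H856.V1
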