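import Mathlib
import Vale.Agent.P260.H493.Spec

/-!
# P260 climb, module M4: openness of `Up` and connectedness of the punctured plane
-/

namespace Vale.Agent.P260.H856

open Vale.Agent.P260.H493

section Paths

variable {Γ : Type} [Group Γ] {S : Finset Γ}

theorem Conn.mono {Q Q' : Γ → Prop} (h : ∀ v, Q v → Q' v) {x y : Γ} (hc : Conn S Q x y) :
    Conn S Q' x y := by
  obtain ⟨hp, hx⟩ := hc
  refine ⟨?_, h x hx⟩
  induction hp with
  | refl => exact Relation.ReflTransGen.refl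
  | @tail b c _ hab ih => exact ih.tail ⟨hab.1, h c hab.2⟩

theorem Conn.right {Q : Γ → Prop} {x y : Γ} (hc : Conn S Q x y) : Q y := by
  obtain ⟨hp, hx⟩ := hc
  cases hp with
  | refl => exact hx
  | tail _ h => exact h.2

theorem Conn.trans {Q : Γ → Prop} {x y z : Γ} (h1 : Conn S Q x y) (h2 : Conn S Q y z) :
    Conn S Q x z :=
  ⟨h1.1.trans h2.1, h1.2⟩

theorem Conn.mul_left {Q Q' : Γ → Prop} (g : Γ) {x y : Γ} (hQ : ∀ v, Q v → Q' (g * v))
    (hc : Conn S Q x y) : Conn S Q' (g * x) (g * y) := by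
  obtain ⟨hp, hx⟩ := hc
  refine ⟨?_, hQ x hx⟩
  induction hp with
  | refl => exact Relation.ReflTransGen.refl
  | tail _ h ih =>
    refine ih.tail ?_
    obtain ⟨⟨s, hs, rfl⟩, hb⟩ := h
    exact ⟨⟨s, hs, by rw [mul_assoc]⟩, hQ _ hb⟩

theorem Conn.fin {Q : Γ → Prop} {x y : Γ} (hc : Conn S Q x y) :
    ∃ F : Finset Γ, (∀ v ∈ F, Q v) ∧ Conn S (fun v => v ∈ F) x y := by
  classical
  obtain ⟨hp, hx⟩ := hc
  induction hp with
  | refl => exact ⟨{x}, by simpa using hx, Relation.ReflTransGen.refl, by simp⟩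
  | @tail b c _ h ih =>
    obtain ⟨F, hF, hC⟩ := ih
    refine ⟨insert c F, ?_, ?_, ?_⟩
    · intro v hv
      rcases Finset.mem_insert.1 hv with rfl | hv
      · exact h.2
      · exact hF v hv
    · refine Relation.ReflTransGen.tail
        (Conn.mono (Q' := fun v => v ∈ insert c F) (fun v hv => ?_) hC).1
        ⟨h.1, Finset.mem_insert_self _ _⟩
      exact Finset.mem_insert_of_mem hv
    · exact Finset.mem_insert_of_mem hC.2

theorem conn_true (hS : GenSet S) (g : Γ) : Conn S (fun _ => True) 1 g := by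
  have hsymm : ∀ {x y : Γ}, Conn S (fun _ => True) x y → Conn S (fun _ => True) y x := by
    rintro x y ⟨hp, _⟩
    refine ⟨?_, trivial⟩
    induction hp with
    | refl => exact Relation.ReflTransGen.refl
    | @tail a b _ hab ih =>
      obtain ⟨⟨s, hs, rfl⟩, _⟩ := hab
      exact Relation.ReflTransGen.head ⟨⟨s⁻¹, hS.inv s hs, by group⟩, trivial⟩ ih
  have hg : g ∈ Subgroup.closure (S : Set Γ) := by rw [hS.gen]; trivial
  induction hg using Subgroup.closure_induction with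
  | mem x hx =>
    exact ⟨Relation.ReflTransGen.single ⟨⟨x, by simpa using hx, by simp⟩, trivial⟩, trivial⟩
  | one => exact ⟨Relation.ReflTransGen.refl, trivial⟩
  | mul x y _ _ hx hy =>
    have := Conn.mul_left (Q' := fun _ => True) x (fun _ _ => trivial) hy
    rw [mul_one] at this
    exact Conn.trans hx this
  | inv x _ hx =>
    have := Conn.mul_left (Q' := fun _ => True) x⁻¹ (fun _ _ => trivial) hx
    rw [mul_one, inv_mul_cancel] at this
    exact hsymm this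

omit [Group Γ] in
theorem exists_lower (F : Finset Γ) (f : Γ → ℝ) : ∃ c : ℝ, ∀ v ∈ F, c ≤ f v := by
  classical
  obtain ⟨c, hc⟩ := (F.image f).bddBelow
  exact ⟨c, fun v hv => hc (by simpa using ⟨v, hv, rfl⟩)⟩

theorem exists_conn (hS : GenSet S) (θ : Γ → ℝ) (g : Γ) :
    ∃ c : ℝ, Conn S (fun v => c ≤ θ v) 1 g := by
  obtain ⟨F, _, hF⟩ := Conn.fin (conn_true hS g)
  obtain ⟨c, hc⟩ := exists_lower F θ
  exact ⟨c, Conn.mono hc hF⟩

omit [Group Γ] in
theorem exists_gap (F : Finset Γ) (f : Γ → ℝ) (m : ℝ) (h : ∀ v ∈ F, m < f v) :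
    ∃ δ : ℝ, 0 < δ ∧ ∀ v ∈ F, m + δ ≤ f v := by
  classical
  induction F using Finset.induction_on with
  | empty => exact ⟨1, one_pos, by simp⟩
  | insert a F _ ih =>
    obtain ⟨δ, h0, hδ⟩ := ih fun v hv => h v (Finset.mem_insert_of_mem hv)
    have ha := h a (Finset.mem_insert_self _ _)
    refine ⟨min δ (f a - m), lt_min h0 (by linarith), fun v hv => ?_⟩
    rcases Finset.mem_insert.1 hv with rfl | hv
    · linarith [min_le_right δ (f v - m)]
    · linarith [min_le_left δ (f a - m), hδ v hv]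

/-- The criterion: one element `h` and finitely many strict inequalities. -/
def Crit (S : Finset Γ) (θ : Γ → ℝ) : Prop :=
  ∃ h : Γ, 0 < θ h ∧ ∀ s ∈ S, Conn S (fun v => min 0 (θ s) < θ v) h (s * h)

theorem IsChar.one {θ : Γ → ℝ} (h : IsChar θ) : θ 1 = 0 := by
  have := h 1 1
  rw [mul_one] at this
  linarith

theorem IsChar.pow {θ : Γ → ℝ} (h : IsChar θ) (g : Γ) (n : ℕ) : θ (g ^ n) = n * θ g := by
  induction n with
  | zero => simp [IsChar.one h]
  | succ n ih => rw [pow_succ, h, ih]; push_cast; ring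

theorem crit_of_up {θ : Γ → ℝ} (hθ : IsChar θ) (hU : Up S θ) : Crit S θ := by
  classical
  obtain ⟨h, h0, hh⟩ := hU
  choose N hN using fun s : Γ => hh s 1
  refine ⟨h ^ (S.sup N + 1), ?_, fun s hs => ?_⟩
  · rw [IsChar.pow hθ]
    positivity
  · have h1 : N s ≤ S.sup N + 1 := (Finset.le_sup hs).trans (Nat.le_succ _)
    refine Conn.mono (fun v hv => ?_) (hN s _ h1)
    exact lt_of_le_of_lt (min_le_left _ _) (by linarith)

theorem up_of_crit (hS : GenSet S) {θ : Γ → ℝ} (hθ : IsChar θ) (hC : Crit S θ) : Up S θ := by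
  classical
  obtain ⟨h, h0, hh⟩ := hC
  -- a uniform gap
  obtain ⟨δ, hδ0, hδh, hδ⟩ : ∃ δ : ℝ, 0 < δ ∧ δ ≤ θ h ∧
      ∀ s ∈ S, Conn S (fun v => min 0 (θ s) + δ ≤ θ v) h (s * h) := by
    have key : ∀ T : Finset Γ, T ⊆ S → ∃ δ : ℝ, 0 < δ ∧ δ ≤ θ h ∧
        ∀ s ∈ T, Conn S (fun v => min 0 (θ s) + δ ≤ θ v) h (s * h) := by
      intro T
      induction T using Finset.induction_on with
      | empty => exact fun _ => ⟨θ h, h0, le_rfl, by simp⟩
      | insert a T _ ih =>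
        intro hT
        obtain ⟨δ, h1, h2, h3⟩ := ih fun v hv => hT (Finset.mem_insert_of_mem hv)
        obtain ⟨F, hF, hFC⟩ := Conn.fin (hh a (hT (Finset.mem_insert_self _ _)))
        obtain ⟨δ', h1', h2'⟩ := exists_gap F θ _ hF
        refine ⟨min δ δ', lt_min h1 h1', (min_le_left _ _).trans h2, fun s hs => ?_⟩
        rcases Finset.mem_insert.1 hs with rfl | hs
        · exact Conn.mono (fun v hv => by linarith [h2' v hv, min_le_right δ δ']) hFC
        · exact Conn.mono (fun v hv => by linarith [min_le_left δ δ']) (h3 s hs)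
    exact key S (Finset.Subset.refl S)
  have step : ∀ (c : ℝ) (x y : Γ), Conn S (fun v => c ≤ θ v) x y →
      Conn S (fun v => c + δ ≤ θ v) (x * h) (y * h) := by
    rintro c x y ⟨hp, hx⟩
    induction hp with
    | refl =>
      refine ⟨Relation.ReflTransGen.refl, ?_⟩
      have e := hθ x h
      change c + δ ≤ θ (x * h)
      linarith
    | @tail a b hp' hab ih =>
      have ha : c ≤ θ a := Conn.right (Q := fun v => c ≤ θ v) ⟨hp', hx⟩
      obtain ⟨⟨s, hs, rfl⟩, hb⟩ := hab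
      refine Conn.trans ih ?_
      have hb' : c ≤ θ (a * s) := hb
      rw [hθ] at hb'
      have := Conn.mul_left (Q' := fun v => c + δ ≤ θ v) a (fun v hv => by
        change min 0 (θ s) + δ ≤ θ v at hv
        rw [hθ]
        rcases le_total 0 (θ s) with h1 | h1
        · rw [min_eq_left h1] at hv; linarith
        · rw [min_eq_right h1] at hv; linarith) (hδ s hs)
      rwa [← mul_assoc] at this
  have iter : ∀ (n : ℕ) (c : ℝ) (x y : Γ), Conn S (fun v => c ≤ θ v) x y →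
      Conn S (fun v => c + n * δ ≤ θ v) (x * h ^ n) (y * h ^ n) := by
    intro n
    induction n with
    | zero => intro c x y hc; simpa using hc
    | succ n ih =>
      intro c x y hc
      have := step _ _ _ (ih c x y hc)
      rw [pow_succ, ← mul_assoc, ← mul_assoc]
      refine Conn.mono (fun v hv => ?_) this
      push_cast
      linarith
  refine ⟨h, h0, fun g C => ?_⟩
  obtain ⟨c, hc⟩ := exists_conn hS θ g
  obtain ⟨N, hN⟩ := exists_nat_gt ((C - c) / δ)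
  refine ⟨N, fun n hn => ?_⟩
  have := iter n c 1 g hc
  rw [one_mul] at this
  refine Conn.mono (fun v hv => le_trans ?_ hv) this
  have h1 : (C - c) / δ < n := hN.trans_le (by exact_mod_cast hn)
  rw [div_lt_iff₀ hδ0] at h1
  linarith

theorem Up.scale {θ : Γ → ℝ} (hU : Up S θ) {D : ℝ} (hD : 0 < D) : Up S (fun g => D * θ g) := by
  obtain ⟨h, h0, hh⟩ := hU
  refine ⟨h, mul_pos hD h0, fun g C => ?_⟩
  obtain ⟨N, hN⟩ := hh g (C / D)
  refine ⟨N, fun n hn => Conn.mono (fun v hv => ?_) (hN n hn)⟩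
  rw [div_le_iff₀ hD] at hv
  linarith

end Paths

section Plane

variable {Γ : Type} [Group Γ] {S : Finset Γ} (χ₁ χ₂ : Γ →* Multiplicative ℤ)

/-- the real character with coordinates `p` -/
def th (p : ℝ × ℝ) (g : Γ) : ℝ := p.1 * (deg χ₁ g : ℝ) + p.2 * (deg χ₂ g : ℝ)

theorem th_char (p : ℝ × ℝ) : IsChar (th χ₁ χ₂ p) := by
  intro a b
  simp only [th, deg, map_mul, toAdd_mul]
  push_cast
  ring

theorem th_neg (p : ℝ × ℝ) : th χ₁ χ₂ (-p) = -th χ₁ χ₂ p := by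
  funext g
  simp only [th, Prod.fst_neg, Prod.snd_neg, Pi.neg_apply]
  ring

theorem th_cont (g : Γ) : Continuous fun p : ℝ × ℝ => th χ₁ χ₂ p g := by
  unfold th
  fun_prop

theorem th_ne (hi : ∀ a b : ℤ, (∀ g, a * deg χ₁ g + b * deg χ₂ g = 0) → a = 0 ∧ b = 0)
    (p : ℝ × ℝ) (hp : p ≠ 0) : th χ₁ χ₂ p ≠ 0 := by
  intro h0
  have h : ∀ g, p.1 * (deg χ₁ g : ℝ) + p.2 * (deg χ₂ g : ℝ) = 0 := fun g => congrFun h0 g
  have hdet : ∀ g g', deg χ₂ g' * deg χ₁ g + (-deg χ₁ g') * deg χ₂ g = 0 := by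
    intro g g'
    have e1 : p.1 * ((deg χ₂ g' * deg χ₁ g + (-deg χ₁ g') * deg χ₂ g : ℤ) : ℝ) = 0 := by
      push_cast
      linear_combination (deg χ₂ g' : ℝ) * h g - (deg χ₂ g : ℝ) * h g'
    have e2 : p.2 * ((deg χ₂ g' * deg χ₁ g + (-deg χ₁ g') * deg χ₂ g : ℤ) : ℝ) = 0 := by
      push_cast
      linear_combination (deg χ₁ g : ℝ) * h g' - (deg χ₁ g' : ℝ) * h g
    rcases mul_eq_zero.1 e1 with h1 | h1
    · rcases mul_eq_zero.1 e2 with h2 | h2
      · exact absurd (Prod.ext h1 h2) hp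
      · exact_mod_cast h2
    · exact_mod_cast h1
  have hz : ∀ g', deg χ₂ g' = 0 ∧ deg χ₁ g' = 0 := by
    intro g'
    obtain ⟨h1, h2⟩ := hi _ _ fun g => hdet g g'
    exact ⟨h1, by omega⟩
  have := (hi 1 0 fun g => by rw [(hz g).1, (hz g).2]; ring).1
  exact one_ne_zero this

theorem up_open (hS : GenSet S) : IsOpen {p : ℝ × ℝ | Up S (th χ₁ χ₂ p)} := by
  classical
  rw [isOpen_iff_mem_nhds]
  intro p₀ hp₀
  obtain ⟨h, h0, hh⟩ := crit_of_up (th_char χ₁ χ₂ p₀) hp₀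
  have hF : ∀ s : Γ, ∃ F : Finset Γ, s ∈ S →
      (∀ v ∈ F, min 0 (th χ₁ χ₂ p₀ s) < th χ₁ χ₂ p₀ v) ∧ Conn S (fun v => v ∈ F) h (s * h) := by
    intro s
    by_cases hs : s ∈ S
    · obtain ⟨F, h1, h2⟩ := Conn.fin (hh s hs)
      exact ⟨F, fun _ => ⟨h1, h2⟩⟩
    · exact ⟨∅, fun h => absurd h hs⟩
  choose F hF using hF
  have e0 : ∀ᶠ p in nhds p₀, 0 < th χ₁ χ₂ p h :=
    (th_cont χ₁ χ₂ h).continuousAt.eventually_const_lt h0
  have e1 : ∀ᶠ p in nhds p₀, ∀ s ∈ S, ∀ v ∈ F s, min 0 (th χ₁ χ₂ p s) < th χ₁ χ₂ p v := by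
    rw [Filter.eventually_all_finset]
    intro s hs
    rw [Filter.eventually_all_finset]
    intro v hv
    have hc : Continuous fun p : ℝ × ℝ => min 0 (th χ₁ χ₂ p s) :=
      continuous_const.min (th_cont χ₁ χ₂ s)
    exact hc.continuousAt.eventually_lt (th_cont χ₁ χ₂ v).continuousAt ((hF s hs).1 v hv)
  filter_upwards [e0, e1] with p h1 h2
  refine up_of_crit hS (th_char χ₁ χ₂ p) ⟨h, h1, fun s hs => ?_⟩
  exact Conn.mono (h2 s hs) (hF s hs).2

theorem exists_both (hS : GenSet S)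
    (hi : ∀ a b : ℤ, (∀ g, a * deg χ₁ g + b * deg χ₂ g = 0) → a = 0 ∧ b = 0)
    (hU : ∀ θ : Γ → ℝ, IsChar θ → θ ≠ 0 → Up S θ ∨ Up S (-θ)) :
    ∃ p : ℝ × ℝ, Up S (th χ₁ χ₂ p) ∧ Up S (th χ₁ χ₂ (-p)) := by
  have hor : ∀ p : ℝ × ℝ, p ≠ 0 → Up S (th χ₁ χ₂ p) ∨ Up S (th χ₁ χ₂ (-p)) := by
    intro p hp
    rw [th_neg]
    exact hU _ (th_char χ₁ χ₂ p) (th_ne χ₁ χ₂ hi p hp)
  have hrk : 1 < Module.rank ℝ (ℝ × ℝ) := by
    rw [rank_prod', Module.rank_self]
    norm_num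
  have hconn := (isConnected_compl_singleton_of_one_lt_rank hrk (0 : ℝ × ℝ)).isPreconnected
  have ho := up_open χ₁ χ₂ hS
  have ho' : IsOpen {p : ℝ × ℝ | Up S (th χ₁ χ₂ (-p))} := ho.preimage continuous_neg
  have hne : ((1, 0) : ℝ × ℝ) ≠ 0 := by
    intro h
    have := congrArg Prod.fst h
    simp at this
  have h1 : (({(0 : ℝ × ℝ)}ᶜ : Set (ℝ × ℝ)) ∩ {p : ℝ × ℝ | Up S (th χ₁ χ₂ p)}).Nonempty := by
    rcases hor _ hne with h | h
    · exact ⟨(1, 0), hne, h⟩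
    · exact ⟨-(1, 0), by simp, h⟩
  have h2 : (({(0 : ℝ × ℝ)}ᶜ : Set (ℝ × ℝ)) ∩ {p : ℝ × ℝ | Up S (th χ₁ χ₂ (-p))}).Nonempty := by
    rcases hor _ hne with h | h
    · exact ⟨-(1, 0), by simp, by simpa using h⟩
    · exact ⟨(1, 0), hne, h⟩
  obtain ⟨p, _, hp1, hp2⟩ := hconn _ _ ho ho' (fun p hp => hor p hp) h1 h2
  exact ⟨p, hp1, hp2⟩

theorem exists_rat (hS : GenSet S) (p : ℝ × ℝ)
    (hp1 : Up S (th χ₁ χ₂ p)) (hp2 : Up S (th χ₁ χ₂ (-p))) :
    ∃ q r : ℚ, Up S (th χ₁ χ₂ ((q : ℝ), (r : ℝ))) ∧ Up S (th χ₁ χ₂ (-((q : ℝ), (r : ℝ)))) := by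
  have ho := up_open χ₁ χ₂ hS
  have ho' : IsOpen {p : ℝ × ℝ | Up S (th χ₁ χ₂ (-p))} := ho.preimage continuous_neg
  have hd : DenseRange (Prod.map ((↑) : ℚ → ℝ) ((↑) : ℚ → ℝ)) :=
    Rat.denseRange_cast.prodMap Rat.denseRange_cast
  obtain ⟨⟨q, r⟩, hqr⟩ := hd.exists_mem_open (ho.inter ho') ⟨p, hp1, hp2⟩
  exact ⟨q, r, hqr.1, hqr.2⟩

end Plane

/-- M4 -/
theorem stmtO : StmtO := by
  intro Γ _ S χ₁ χ₂ hS hi hU
  obtain ⟨p, hp1, hp2⟩ := exists_both χ₁ χ₂ hS hi hU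
  obtain ⟨q, r, h1, h2⟩ := exists_rat χ₁ χ₂ hS p hp1 hp2
  have hq : (0 : ℝ) < (q.den : ℝ) := by exact_mod_cast q.den_pos
  have hr : (0 : ℝ) < (r.den : ℝ) := by exact_mod_cast r.den_pos
  have eq1 : (q : ℝ) * q.den = q.num := by exact_mod_cast Rat.mul_den_eq_num q
  have er1 : (r : ℝ) * r.den = r.num := by exact_mod_cast Rat.mul_den_eq_num r
  have e : ∀ g, ((q.num * r.den * deg χ₁ g + r.num * q.den * deg χ₂ g : ℤ) : ℝ) =
      (q.den * r.den : ℝ) * th χ₁ χ₂ ((q : ℝ), (r : ℝ)) g := by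
    intro g
    simp only [th]
    push_cast
    rw [← eq1, ← er1]
    ring
  refine ⟨q.num * r.den, r.num * q.den, ?_, ?_⟩
  · have := Up.scale h1 (mul_pos hq hr)
    simpa only [e] using this
  · have := Up.scale h2 (mul_pos hq hr)
    rw [th_neg] at this
    simpa only [e, Pi.neg_apply, mul_neg] using this

end Vale.Agent.P260.H856
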